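import Vale.Agent.P275.H341.Rows4
import Vale.Agent.P275.H633.A8

/-!
# The leading coefficients of the point counts of the isotypic parts
-/

namespace Vale.Agent.P275.R2.H617
open scoped BigOperators Topology
open Filter Asymptotics Vale.Agent.P275.H341

/-- the powers of `p` -/
noncomputable abbrev P (a : ℕ) : ℕ → ℂ := fun p => (p : ℂ) ^ a

theorem P_mono {a b : ℕ} (h : a ≤ b) : P a =O[atTop] P b := by
  refine IsBigO.of_bound 1 ?_
  filter_upwards [eventually_ge_atTop 1] with p hp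
  simp only [P, norm_pow, Complex.norm_natCast, one_mul]
  exact pow_le_pow_right₀ (by exact_mod_cast hp) h

theorem ld_zero (a : ℕ → ℂ) : ld a 0 = 0 := by
  unfold ld
  simp

theorem ld_rec (a : ℕ → ℂ) (h0 : a 0 = 1) (k : ℕ) (hk : 0 < k) :
    ld a k = k * a k - ∑ i ∈ Finset.Ico 1 k, ld a i * a (k - i) := by
  have hA : PowerSeries.constantCoeff (PowerSeries.mk a) ≠ 0 := by
    rw [← PowerSeries.coeff_zero_eq_constantCoeff_apply, PowerSeries.coeff_mk, h0]
    exact one_ne_zero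
  have h1 : (PowerSeries.X * PowerSeries.derivative ℂ (PowerSeries.mk a) *
      (PowerSeries.mk a)⁻¹) * PowerSeries.mk a
      = PowerSeries.X * PowerSeries.derivative ℂ (PowerSeries.mk a) := by
    rw [mul_assoc, PowerSeries.inv_mul_cancel _ hA, mul_one]
  have h2 := congrArg (PowerSeries.coeff k) h1
  rw [PowerSeries.coeff_mul, Finset.Nat.sum_antidiagonal_eq_sum_range_succ
    (fun i j => PowerSeries.coeff i (PowerSeries.X * PowerSeries.derivative ℂ (PowerSeries.mk a) *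
      (PowerSeries.mk a)⁻¹) * PowerSeries.coeff j (PowerSeries.mk a)) k] at h2
  have h3 : PowerSeries.coeff k (PowerSeries.X * PowerSeries.derivative ℂ (PowerSeries.mk a))
      = k * a k := by
    obtain ⟨j, rfl⟩ : ∃ j, k = j + 1 := ⟨k - 1, by omega⟩
    rw [mul_comm, PowerSeries.coeff_succ_mul_X]
    simp [PowerSeries.coeff_derivative, mul_comm]
  rw [h3, Finset.sum_range_succ, Finset.range_eq_Ico, Finset.sum_eq_sum_Ico_succ_bot hk] at h2
  simp only [PowerSeries.coeff_mk, Nat.sub_self, h0, mul_one] at h2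
  have h4 : PowerSeries.coeff 0 (PowerSeries.X * PowerSeries.derivative ℂ (PowerSeries.mk a) *
      (PowerSeries.mk a)⁻¹) = 0 := ld_zero a
  rw [h4, zero_mul, zero_add, zero_add] at h2
  unfold ld
  rw [eq_sub_iff_add_eq, add_comm]
  exact h2

theorem ld_asym (a : ℕ → ℕ → ℂ) (c : ℕ) (hc : 2 ≤ c) (h0 : ∀ p, a p 0 = 1)
    (ha : ∀ k, (fun p => a p k) =O[atTop] P (c * (k ^ 2 + k))) (k : ℕ) (hk : 0 < k) :
    (fun p => ld (a p) k) =O[atTop] P (c * (k ^ 2 + k)) ∧
    (fun p : ℕ => (ld (a p) k - k * a p k) * (p : ℂ) ^ 4) =O[atTop] P (c * (k ^ 2 + k)) := by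
  induction k using Nat.strong_induction_on with
  | _ k ih =>
    have h2 : (fun p : ℕ => (ld (a p) k - k * a p k) * (p : ℂ) ^ 4) =O[atTop]
        P (c * (k ^ 2 + k)) := by
      have e : (fun p : ℕ => (ld (a p) k - k * a p k) * (p : ℂ) ^ 4)
          = fun p : ℕ => ∑ i ∈ Finset.Ico 1 k, -(ld (a p) i * a p (k - i) * (p : ℂ) ^ 4) := by
        funext p
        rw [ld_rec (a p) (h0 p) k hk, Finset.sum_neg_distrib, ← Finset.sum_mul]
        ring
      rw [e]
      suffices hS : ∀ i ∈ Finset.Ico 1 k,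
          (fun p : ℕ => -(ld (a p) i * a p (k - i) * (p : ℂ) ^ 4)) =O[atTop]
          P (c * (k ^ 2 + k)) by simpa only [Finset.sum_fn] using IsBigO.sum hS
      intro i hi
      rw [Finset.mem_Ico] at hi
      suffices hs : (fun p : ℕ => ld (a p) i * a p (k - i) * (p : ℂ) ^ 4) =O[atTop]
          P (c * (k ^ 2 + k)) from hs.neg_left
      have h1 := ((ih i hi.2 (by omega)).1.mul (ha (k - i))).mul (isBigO_refl (P 4) atTop)
      refine h1.trans ?_
      have e2 : (fun p : ℕ => P (c * (i ^ 2 + i)) p * P (c * ((k - i) ^ 2 + (k - i))) p * P 4 p)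
          = P (c * (i ^ 2 + i) + c * ((k - i) ^ 2 + (k - i)) + 4) := by
        funext p
        simp only [P, pow_add]
      rw [e2]
      refine P_mono ?_
      obtain ⟨j, rfl⟩ : ∃ j, k = i + j := ⟨k - i, by omega⟩
      have hj : 1 ≤ j := by omega
      have hi1 : 1 ≤ i := hi.1
      rw [Nat.add_sub_cancel_left]
      have h5 : 1 ≤ i * j := Nat.mul_pos hi1 hj
      nlinarith [Nat.mul_le_mul hc h5]
    refine ⟨?_, h2⟩
    have h3 : (fun p : ℕ => ld (a p) k - k * a p k) =O[atTop] P (c * (k ^ 2 + k)) := by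
      refine IsBigO.trans (IsBigO.of_bound 1 ?_) h2
      filter_upwards [eventually_ge_atTop 1] with p hp
      rw [norm_mul, norm_pow, Complex.norm_natCast, one_mul]
      have : (1 : ℝ) ≤ (p : ℝ) ^ 4 := one_le_pow₀ (by exact_mod_cast hp)
      exact le_mul_of_one_le_right (norm_nonneg _) this
    have h4 : (fun p : ℕ => (k : ℂ) * a p k) =O[atTop] P (c * (k ^ 2 + k)) :=
      (ha k).const_mul_left _
    have h5 := h3.add h4
    simpa using h5

theorem choose3 (k : ℕ) : ∑ i : Fin k, Nat.choose (k - 1 - i) 2 = Nat.choose k 3 := by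
  rw [Fin.sum_univ_eq_sum_range (fun i => Nat.choose (k - 1 - i) 2) k,
    Finset.sum_range_reflect (fun i => Nat.choose i 2) k]
  induction k with
  | zero => rfl
  | succ k ih => rw [Finset.sum_range_succ, ih, Nat.choose_succ_succ' k 2, add_comm]

theorem tri (l : ℕ) : 2 * ∑ t ∈ Finset.range l, (t + 1) = l ^ 2 + l := by
  induction l with
  | zero => rfl
  | succ l ih => rw [Finset.sum_range_succ, mul_add, ih]; ring

theorem two_choose (s : ℕ) : 2 * Nat.choose s 2 + s = s ^ 2 := by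
  induction s with
  | zero => rfl
  | succ s ih =>
    rw [Nat.choose_succ_succ' s 1, Nat.choose_one_right]
    nlinarith

theorem expo {k : ℕ} (lam : Fin k → ℕ) :
    Nat.choose k 3 + ∑ i : Fin k, ∑ t ∈ Finset.range (lam i + (k - 1 - i)), (t + 1)
      = (∑ i : Fin k, ∑ _j ∈ Finset.Ioi i, (lam i + (k - 1 - i)))
        + ∑ i : Fin k, ∑ t ∈ Finset.range (lam i), (t + 1) := by
  rw [← choose3, ← Finset.sum_add_distrib, ← Finset.sum_add_distrib]
  refine Finset.sum_congr rfl fun i _ => ?_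
  rw [Finset.sum_const, Fin.card_Ioi, smul_eq_mul]
  have h1 := tri (lam i + (k - 1 - i))
  have h2 := tri (lam i)
  have h3 := two_choose (k - 1 - i)
  nlinarith

theorem norm_sub_le {x : ℝ} (hx : 1 ≤ x) (n : ℕ) : ‖(x : ℂ) ^ n - 1‖ ≤ x ^ n := by
  have h : (x : ℂ) ^ n - 1 = ((x ^ n - 1 : ℝ) : ℂ) := by push_cast; ring
  rw [h, Complex.norm_real, Real.norm_of_nonneg (by linarith [one_le_pow₀ hx (n := n)])]
  linarith

theorem norm_sub_ge {x : ℝ} (hx : 2 ≤ x) {a b : ℕ} (h : b < a) :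
    x ^ a / 2 ≤ ‖(x : ℂ) ^ a - (x : ℂ) ^ b‖ := by
  have h1 : (x : ℂ) ^ a - (x : ℂ) ^ b = ((x ^ a - x ^ b : ℝ) : ℂ) := by push_cast; ring
  have h2 : 2 * x ^ b ≤ x ^ a := by
    have : x ^ (b + 1) ≤ x ^ a := pow_le_pow_right₀ (by linarith) h
    rw [pow_succ] at this
    have h3 : 0 ≤ x ^ b := by positivity
    nlinarith
  have h3 : 0 ≤ x ^ b := by positivity
  rw [h1, Complex.norm_real, Real.norm_of_nonneg (by linarith)]
  linarith

theorem hk_bound {k : ℕ} {lam : Fin k → ℕ} (hl : lam ∈ Pt k) {x : ℝ} (hx : 2 ≤ x) :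
    ‖hk (x : ℂ) lam‖ ≤ (∏ i : Fin k, ∏ _j ∈ Finset.Ioi i, (2 : ℝ)) *
      x ^ (∑ i : Fin k, ∑ t ∈ Finset.range (lam i), (t + 1)) := by
  have hx0 : 0 < x := by linarith
  have hanti : ∀ i j : Fin k, i ≤ j → lam j ≤ lam i := (Finset.mem_filter.1 hl).2
  unfold hk
  rw [norm_div, norm_mul, norm_prod, norm_prod]
  have hnum : ‖(x : ℂ) ^ Nat.choose k 3‖ * ∏ i : Fin k,
      ‖∏ t ∈ Finset.range (lam i + (k - 1 - i)), ((x : ℂ) ^ (t + 1) - 1)‖ ≤
      x ^ (Nat.choose k 3 + ∑ i : Fin k, ∑ t ∈ Finset.range (lam i + (k - 1 - i)), (t + 1)) := by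
    rw [pow_add, norm_pow, Complex.norm_real, Real.norm_of_nonneg hx0.le,
      ← Finset.prod_pow_eq_pow_sum]
    refine mul_le_mul_of_nonneg_left ?_ (by positivity)
    refine Finset.prod_le_prod (fun _ _ => norm_nonneg _) fun i _ => ?_
    rw [norm_prod, ← Finset.prod_pow_eq_pow_sum]
    exact Finset.prod_le_prod (fun _ _ => norm_nonneg _) fun t _ => norm_sub_le (by linarith) _
  have hden : x ^ (∑ i : Fin k, ∑ _j ∈ Finset.Ioi i, (lam i + (k - 1 - i))) /
      (∏ i : Fin k, ∏ _j ∈ Finset.Ioi i, (2 : ℝ)) ≤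
      ∏ i : Fin k, ‖∏ j ∈ Finset.Ioi i,
        ((x : ℂ) ^ (lam i + (k - 1 - i)) - (x : ℂ) ^ (lam j + (k - 1 - j)))‖ := by
    rw [← Finset.prod_pow_eq_pow_sum, ← Finset.prod_div_distrib]
    refine Finset.prod_le_prod (fun _ _ => by positivity) fun i _ => ?_
    rw [norm_prod, ← Finset.prod_pow_eq_pow_sum, ← Finset.prod_div_distrib]
    refine Finset.prod_le_prod (fun _ _ => by positivity) fun j hj => ?_
    refine norm_sub_ge hx ?_
    have hij : i < j := Finset.mem_Ioi.1 hj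
    have h1 := hanti i j hij.le
    have h2 : (i : ℕ) < j := hij
    have h3 := j.isLt
    omega
  have h2 : 0 < ∏ i : Fin k, ∏ _j ∈ Finset.Ioi i, (2 : ℝ) := by positivity
  have hpos : 0 < x ^ (∑ i : Fin k, ∑ _j ∈ Finset.Ioi i, (lam i + (k - 1 - i))) /
      (∏ i : Fin k, ∏ _j ∈ Finset.Ioi i, (2 : ℝ)) := by positivity
  refine (div_le_div₀ (by positivity) hnum hpos hden).trans (le_of_eq ?_)
  rw [expo, pow_add]
  field_simp

/-- the partition with one part -/
def top (k : ℕ) : Fin k → ℕ := fun i => if (i : ℕ) = 0 then k else 0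

theorem top_mem (k : ℕ) : top k ∈ Pt k := by
  rw [Pt, Finset.mem_filter, Finset.Nat.mem_antidiagonalTuple]
  refine ⟨?_, fun i j hij => ?_⟩
  · cases k with
    | zero => rfl
    | succ k =>
      rw [Fin.sum_univ_succ]
      simp [top]
  · unfold top
    have : (i : ℕ) ≤ j := hij
    split_ifs <;> omega

theorem wt_le {k : ℕ} {lam : Fin k → ℕ} (hl : lam ∈ Pt k) :
    2 * ∑ i : Fin k, ∑ t ∈ Finset.range (lam i), (t + 1) ≤ k ^ 2 + k ∧
    (lam ≠ top k → 2 * ∑ i : Fin k, ∑ t ∈ Finset.range (lam i), (t + 1) ≤ k ^ 2) := by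
  have h := Finset.mem_filter.1 hl
  have hsum : ∑ i, lam i = k := Finset.Nat.mem_antidiagonalTuple.1 h.1
  have hanti : ∀ i j : Fin k, i ≤ j → lam j ≤ lam i := h.2
  cases k with
  | zero => simp
  | succ k =>
    have hle : ∀ i, lam i ≤ lam 0 := fun i => hanti 0 i (Fin.zero_le i)
    have h0 : lam 0 ≤ k + 1 := by
      exact (Finset.single_le_sum (f := lam) (fun _ _ => Nat.zero_le _)
        (Finset.mem_univ 0)).trans hsum.le
    have hb : 2 * ∑ i : Fin (k + 1), ∑ t ∈ Finset.range (lam i), (t + 1)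
        ≤ (k + 1) * (lam 0 + 1) := by
      rw [Finset.mul_sum]
      calc ∑ i, 2 * ∑ t ∈ Finset.range (lam i), (t + 1) = ∑ i, lam i * (lam i + 1) :=
            Finset.sum_congr rfl fun i _ => by rw [tri]; ring
        _ ≤ ∑ i, lam i * (lam 0 + 1) :=
            Finset.sum_le_sum fun i _ => Nat.mul_le_mul_left _ (by have := hle i; omega)
        _ = (k + 1) * (lam 0 + 1) := by rw [← Finset.sum_mul, hsum]
    refine ⟨by nlinarith, fun hne => ?_⟩
    have h1 : lam 0 ≤ k := by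
      by_contra hcon
      have h2 : lam 0 = k + 1 := by omega
      apply hne
      rw [Fin.sum_univ_succ, h2] at hsum
      have h3 : ∑ i : Fin k, lam i.succ = 0 := by omega
      funext i
      unfold top
      refine Fin.cases ?_ (fun j => ?_) i
      · simpa using h2
      · have h4 := (Finset.sum_eq_zero_iff.1 h3) j (Finset.mem_univ j)
        simpa using h4
    nlinarith

theorem hk_top (A8 : RowA8) {x : ℝ} (hx : 2 ≤ x) (k : ℕ) :
    hk (x : ℂ) (top k) = ∏ t ∈ Finset.range k, ((x : ℂ) ^ (t + 1) - 1) := by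
  have hne : ∀ n, 0 < n → (x : ℂ) ^ n ≠ 1 := by
    intro n hn h
    have h1 : (x ^ n : ℝ) = 1 := by exact_mod_cast h
    have h2 : (1 : ℝ) < x ^ n := one_lt_pow₀ (by linarith) (by omega)
    linarith
  have hx0 : (x : ℂ) ≠ 0 := by
    have : x ≠ 0 := by linarith
    exact_mod_cast this
  have h := A8 x hx0 hne k (top k) (top_mem k)
  have hj : jt (fun i => ∏ t ∈ Finset.range i, ((x : ℂ) ^ (t + 1) - 1)⁻¹) (top k)
      = ∏ t ∈ Finset.range k, ((x : ℂ) ^ (t + 1) - 1)⁻¹ := by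
    cases k with
    | zero => simp [jt]
    | succ k =>
      unfold jt
      rw [Matrix.det_of_isUpperTriangular, Fin.prod_univ_succ]
      · simp [top]
      · intro i j hij
        have h1 : (j : ℕ) < i := hij
        rw [Matrix.of_apply]
        have h2 : top (k + 1) i = 0 := by
          unfold top
          rw [if_neg (by omega)]
        rw [h2, if_neg (by omega)]
  rw [hj, Finset.prod_inv_distrib] at h
  have hp : ∏ t ∈ Finset.range k, ((x : ℂ) ^ (t + 1) - 1) ≠ 0 :=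
    Finset.prod_ne_zero_iff.2 fun t _ => sub_ne_zero.2 (hne _ (Nat.succ_pos t))
  field_simp at h
  exact h

/-- the normalised distance to `1` has the limit `α` -/
def L1 (f : ℕ → ℂ) (α : ℂ) : Prop := Tendsto (fun p : ℕ => (p : ℂ) * (f p - 1)) atTop (𝓝 α)

theorem inv_tendsto : Tendsto (fun p : ℕ => ((p : ℂ))⁻¹) atTop (𝓝 0) :=
  tendsto_inv_atTop_nhds_zero_nat (𝕜 := ℂ)

theorem L1.tend {f : ℕ → ℂ} {α : ℂ} (h : L1 f α) : Tendsto f atTop (𝓝 1) := by
  have h1 := (h.mul inv_tendsto).add_const 1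
  rw [mul_zero, zero_add] at h1
  refine h1.congr' ?_
  filter_upwards [eventually_gt_atTop 0] with p hp
  have : (p : ℂ) ≠ 0 := by exact_mod_cast hp.ne'
  field_simp
  ring

theorem L1.mul {f g : ℕ → ℂ} {α β : ℂ} (hf : L1 f α) (hg : L1 g β) :
    L1 (fun p => f p * g p) (α + β) := by
  have h1 := (Tendsto.mul hf hg.tend).add hg
  rw [mul_one] at h1
  refine h1.congr fun p => ?_
  ring

theorem L1_one : L1 (fun _ => 1) 0 := by
  unfold L1
  simp

theorem L1.prod {ι : Type} (s : Finset ι) {f : ι → ℕ → ℂ} {α : ι → ℂ}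
    (h : ∀ i ∈ s, L1 (f i) (α i)) : L1 (fun p => ∏ i ∈ s, f i p) (∑ i ∈ s, α i) := by
  classical
  induction s using Finset.induction_on with
  | empty => simpa using L1_one
  | insert i s hi ih =>
    simp only [Finset.prod_insert hi, Finset.sum_insert hi]
    exact (h i (Finset.mem_insert_self i s)).mul
      (ih fun j hj => h j (Finset.mem_insert_of_mem hj))

theorem L1.pow {f : ℕ → ℂ} {α : ℂ} (h : L1 f α) (N : ℕ) :
    L1 (fun p => f p ^ N) (N * α) := by
  have h1 := L1.prod (Finset.range N) (f := fun _ => f) (α := fun _ => α) fun _ _ => h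
  simpa using h1

theorem L1_base (m : ℕ) (hm : 0 < m) :
    L1 (fun p => 1 - ((p : ℂ))⁻¹ ^ m) (if m = 1 then -1 else 0) := by
  have e : (fun p : ℕ => (p : ℂ) * ((1 - ((p : ℂ))⁻¹ ^ m) - 1))
      =ᶠ[atTop] fun p : ℕ => -((p : ℂ))⁻¹ ^ (m - 1) := by
    filter_upwards [eventually_gt_atTop 0] with p hp
    have : (p : ℂ) ≠ 0 := by exact_mod_cast hp.ne'
    obtain ⟨j, rfl⟩ : ∃ j, m = j + 1 := ⟨m - 1, by omega⟩
    rw [Nat.add_sub_cancel, pow_succ]
    field_simp
    ring
  refine Tendsto.congr' e.symm ?_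
  split_ifs with h
  · subst h
    simp
  · have h1 := (inv_tendsto.pow (m - 1)).neg
    rw [zero_pow (by omega), neg_zero] at h1
    exact h1

theorem hk_O {k : ℕ} {lam : Fin k → ℕ} (hl : lam ∈ Pt k) (g d e M : ℕ) (hg : 1 ≤ g) (hd : 1 ≤ d)
    (hM : 2 * ∑ i : Fin k, ∑ t ∈ Finset.range (lam i), (t + 1) ≤ M) :
    (fun p : ℕ => (hk ((p : ℂ) ^ d) lam ^ (2 * g - 2)) ^ e) =O[atTop]
      P ((g - 1) * (d * e) * M) := by
  set w := ∑ i : Fin k, ∑ t ∈ Finset.range (lam i), (t + 1) with hw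
  set C := ∏ i : Fin k, ∏ _j ∈ Finset.Ioi i, (2 : ℝ) with hC
  refine IsBigO.of_bound ((C ^ (2 * g - 2)) ^ e) ?_
  filter_upwards [eventually_ge_atTop 2] with p hp
  have hp2 : (2 : ℝ) ≤ p := by exact_mod_cast hp
  have hx : (2 : ℝ) ≤ (p : ℝ) ^ d :=
    hp2.trans (le_self_pow₀ (by linarith) (by omega))
  have h1 := hk_bound hl hx
  rw [← hw, ← hC] at h1
  have h2 : ((((p : ℝ) ^ d : ℝ)) : ℂ) = (p : ℂ) ^ d := by push_cast; rfl
  rw [h2] at h1
  have hC0 : 0 ≤ C := by positivity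
  rw [norm_pow, norm_pow]
  calc (‖hk ((p : ℂ) ^ d) lam‖ ^ (2 * g - 2)) ^ e
      ≤ ((C * ((p : ℝ) ^ d) ^ w) ^ (2 * g - 2)) ^ e := by gcongr
    _ = (C ^ (2 * g - 2)) ^ e * (p : ℝ) ^ ((g - 1) * (d * e) * (2 * w)) := by
        rw [mul_pow, mul_pow]
        congr 1
        rw [← pow_mul, ← pow_mul, ← pow_mul]
        congr 1
        obtain ⟨g', rfl⟩ : ∃ g', g = g' + 1 := ⟨g - 1, by omega⟩
        rw [show 2 * (g' + 1) - 2 = 2 * g' by omega, Nat.add_sub_cancel]
        ring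
    _ ≤ (C ^ (2 * g - 2)) ^ e * ‖P ((g - 1) * (d * e) * M) p‖ := by
        simp only [P, norm_pow, Complex.norm_natCast]
        refine mul_le_mul_of_nonneg_left ?_ (by positivity)
        exact pow_le_pow_right₀ (by linarith) (Nat.mul_le_mul_left _ hM)

theorem om_eq (g d e k : ℕ) (q : ℂ) : om (powMonoidHom (2 * g - 2)) q d e k
    = ∑ lam ∈ Pt k, (hk (q ^ d) lam ^ (2 * g - 2)) ^ e := by
  simp only [om, powMonoidHom_apply]

theorem om_zero (g d e : ℕ) (q : ℂ) : om (powMonoidHom (2 * g - 2)) q d e 0 = 1 := by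
  rw [om_eq]
  have h : Pt 0 = {top 0} := by
    ext f
    rw [Finset.mem_singleton]
    exact ⟨fun _ => Subsingleton.elim _ _, fun h => h ▸ top_mem 0⟩
  rw [h, Finset.sum_singleton]
  simp [hk]

theorem om_O (g d e k : ℕ) (hg : 1 ≤ g) (hd : 1 ≤ d) :
    (fun p : ℕ => om (powMonoidHom (2 * g - 2)) (p : ℂ) d e k) =O[atTop]
      P ((g - 1) * (d * e) * (k ^ 2 + k)) := by
  simp only [om_eq]
  have h : ∀ lam ∈ Pt k, (fun p : ℕ => (hk ((p : ℂ) ^ d) lam ^ (2 * g - 2)) ^ e) =O[atTop]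
      P ((g - 1) * (d * e) * (k ^ 2 + k)) := fun lam hl => hk_O hl g d e _ hg hd (wt_le hl).1
  simpa only [Finset.sum_fn] using IsBigO.sum h

/-- the leading term -/
noncomputable def tp (g d e k : ℕ) (p : ℕ) : ℂ :=
  ((∏ t ∈ Finset.range k, (((p : ℂ) ^ d) ^ (t + 1) - 1)) ^ (2 * g - 2)) ^ e

theorem om_top (A8 : RowA8) (g d e k : ℕ) (hg : 1 ≤ g) (hd : 1 ≤ d) (hk1 : 1 ≤ k)
    (hc : 2 ≤ (g - 1) * (d * e)) :
    (fun p : ℕ => (om (powMonoidHom (2 * g - 2)) (p : ℂ) d e k - tp g d e k p) * (p : ℂ) ^ 2)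
      =O[atTop] P ((g - 1) * (d * e) * (k ^ 2 + k)) := by
  classical
  have e1 : (fun p : ℕ => (om (powMonoidHom (2 * g - 2)) (p : ℂ) d e k - tp g d e k p) *
      (p : ℂ) ^ 2) =ᶠ[atTop] fun p : ℕ => ∑ lam ∈ (Pt k).erase (top k),
      (hk ((p : ℂ) ^ d) lam ^ (2 * g - 2)) ^ e * (p : ℂ) ^ 2 := by
    filter_upwards [eventually_ge_atTop 2] with p hp
    have hp2 : (2 : ℝ) ≤ p := by exact_mod_cast hp
    have hx : (2 : ℝ) ≤ (p : ℝ) ^ d :=
      hp2.trans (le_self_pow₀ (by linarith) (by omega))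
    have h1 := hk_top A8 hx k
    have h2 : ((((p : ℝ) ^ d : ℝ)) : ℂ) = (p : ℂ) ^ d := by push_cast; rfl
    rw [h2] at h1
    rw [om_eq, ← Finset.add_sum_erase _ _ (top_mem k), ← Finset.sum_mul]
    unfold tp
    rw [h1]
    ring
  refine IsBigO.trans e1.isBigO ?_
  have h : ∀ lam ∈ (Pt k).erase (top k),
      (fun p : ℕ => (hk ((p : ℂ) ^ d) lam ^ (2 * g - 2)) ^ e * (p : ℂ) ^ 2) =O[atTop]
      P ((g - 1) * (d * e) * (k ^ 2 + k)) := by
    intro lam hl
    rw [Finset.mem_erase] at hl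
    have h1 := (hk_O hl.2 g d e _ hg hd ((wt_le hl.2).2 hl.1)).mul (isBigO_refl (P 2) atTop)
    refine h1.trans ?_
    have e2 : (fun p : ℕ => P ((g - 1) * (d * e) * k ^ 2) p * P 2 p)
        = P ((g - 1) * (d * e) * k ^ 2 + 2) := by
      funext p
      simp only [P, pow_add]
    rw [e2]
    refine P_mono ?_
    nlinarith [Nat.mul_le_mul hc hk1]
  simpa only [Finset.sum_fn] using IsBigO.sum h

theorem ld_top (A8 : RowA8) (g d e k : ℕ) (hg : 1 ≤ g) (hd : 1 ≤ d) (hk1 : 1 ≤ k)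
    (hc : 2 ≤ (g - 1) * (d * e)) :
    (fun p : ℕ => (ld (om (powMonoidHom (2 * g - 2)) (p : ℂ) d e) k - k * tp g d e k p) *
      (p : ℂ) ^ 2) =O[atTop] P ((g - 1) * (d * e) * (k ^ 2 + k)) := by
  have h1 := (ld_asym (fun p => om (powMonoidHom (2 * g - 2)) (p : ℂ) d e) _ hc
    (fun p => om_zero g d e p) (fun k => om_O g d e k hg hd) k hk1).2
  have h2 := (om_top A8 g d e k hg hd hk1 hc).const_mul_left (k : ℂ)
  have h3 : (fun p : ℕ => (ld (om (powMonoidHom (2 * g - 2)) (p : ℂ) d e) k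
      - k * om (powMonoidHom (2 * g - 2)) (p : ℂ) d e k) * (p : ℂ) ^ 2) =O[atTop]
      P ((g - 1) * (d * e) * (k ^ 2 + k)) := by
    refine IsBigO.trans (IsBigO.of_bound 1 ?_) h1
    filter_upwards [eventually_ge_atTop 1] with p hp
    rw [norm_mul, norm_mul, norm_pow, norm_pow, Complex.norm_natCast, one_mul]
    refine mul_le_mul_of_nonneg_left ?_ (norm_nonneg _)
    exact pow_le_pow_right₀ (by exact_mod_cast hp) (by norm_num)
  refine (h3.add h2).congr_left fun p => ?_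
  ring

/-- the normalised leading term -/
noncomputable def rt (g d e k : ℕ) (p : ℕ) : ℂ :=
  ((∏ t ∈ Finset.range k, (1 - ((p : ℂ))⁻¹ ^ (d * (t + 1)))) ^ (2 * g - 2)) ^ e

theorem tp_eq (g d e k p : ℕ) (hg : 1 ≤ g) (hp : p ≠ 0) :
    tp g d e k p = (p : ℂ) ^ ((g - 1) * (d * e) * (k ^ 2 + k)) * rt g d e k p := by
  have hp0 : (p : ℂ) ≠ 0 := by exact_mod_cast hp
  have h : ∏ t ∈ Finset.range k, (((p : ℂ) ^ d) ^ (t + 1) - 1)
      = (p : ℂ) ^ (d * ∑ t ∈ Finset.range k, (t + 1)) *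
        ∏ t ∈ Finset.range k, (1 - ((p : ℂ))⁻¹ ^ (d * (t + 1))) := by
    rw [Finset.mul_sum, ← Finset.prod_pow_eq_pow_sum, ← Finset.prod_mul_distrib]
    refine Finset.prod_congr rfl fun t _ => ?_
    rw [mul_sub, mul_one, ← mul_pow, mul_inv_cancel₀ hp0, one_pow, ← pow_mul]
  unfold tp rt
  rw [h, mul_pow, mul_pow, ← pow_mul, ← pow_mul]
  congr 2
  have h2 := tri k
  obtain ⟨g', rfl⟩ : ∃ g', g = g' + 1 := ⟨g - 1, by omega⟩
  rw [show 2 * (g' + 1) - 2 = 2 * g' by omega, Nat.add_sub_cancel, ← h2]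
  ring

theorem rt_L1 (g d e k : ℕ) (hd : 1 ≤ d) (hk1 : 1 ≤ k) :
    L1 (rt g d e k) (e * ((2 * g - 2 : ℕ) * (if d = 1 then -1 else 0))) := by
  have h := ((L1.prod (Finset.range k) (f := fun t p => 1 - ((p : ℂ))⁻¹ ^ (d * (t + 1)))
    (α := fun t => if d * (t + 1) = 1 then -1 else 0)
    fun t _ => L1_base (d * (t + 1)) (by positivity)).pow (2 * g - 2)).pow e
  have h2 : ∑ t ∈ Finset.range k, (if d * (t + 1) = 1 then (-1 : ℂ) else 0)
      = if d = 1 then -1 else 0 := by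
    rw [Finset.sum_eq_single_of_mem 0 (Finset.mem_range.2 hk1)]
    · simp
    · intro t _ ht
      rw [if_neg]
      intro h
      have := Nat.eq_one_of_mul_eq_one_left h
      omega
  rw [h2] at h
  exact h

theorem O_div {f : ℕ → ℂ} {a b : ℕ} (hf : f =O[atTop] P a) (h : a + 1 ≤ b) :
    Tendsto (fun p : ℕ => f p / (p : ℂ) ^ b) atTop (𝓝 0) := by
  have h1 : f =O[atTop] P (b - 1) := hf.trans (P_mono (by omega))
  have h2 : (fun p : ℕ => f p / (p : ℂ) ^ b) =O[atTop] fun p : ℕ => ((p : ℂ))⁻¹ := by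
    have h3 := h1.mul (isBigO_refl (fun p : ℕ => ((p : ℂ) ^ b)⁻¹) atTop)
    refine (h3.congr_left fun p => by rw [div_eq_mul_inv]).trans ?_
    refine IsBigO.of_bound 1 ?_
    filter_upwards [eventually_gt_atTop 0] with p hp
    have hp0 : (p : ℂ) ≠ 0 := by exact_mod_cast hp.ne'
    obtain ⟨b', rfl⟩ : ∃ b', b = b' + 1 := ⟨b - 1, by omega⟩
    rw [one_mul]
    refine le_of_eq (congrArg _ ?_)
    simp only [P, Nat.add_sub_cancel, pow_succ]
    field_simp
  exact h2.trans_tendsto inv_tendsto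

theorem term_lim (A8 : RowA8) (g d e k : ℕ) (hg : 1 ≤ g) (hd : 1 ≤ d) (hk1 : 1 ≤ k)
    (hc : 2 ≤ (g - 1) * (d * e)) :
    Tendsto (fun p : ℕ => (p : ℂ) * (ld (om (powMonoidHom (2 * g - 2)) (p : ℂ) d e) k /
      (p : ℂ) ^ ((g - 1) * (d * e) * (k ^ 2 + k))) - (p : ℂ) * k) atTop
      (𝓝 (k * (e * ((2 * g - 2 : ℕ) * (if d = 1 then -1 else 0))))) := by
  set a := (g - 1) * (d * e) * (k ^ 2 + k) with ha
  have h1 := (rt_L1 g d e k hd hk1)
  have h2 : Tendsto (fun p : ℕ => (k : ℂ) * ((p : ℂ) * (rt g d e k p - 1))) atTop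
      (𝓝 (k * (e * ((2 * g - 2 : ℕ) * (if d = 1 then -1 else 0))))) := Tendsto.const_mul _ h1
  have h3 := ld_top A8 g d e k hg hd hk1 hc
  rw [← ha] at h3
  have h4 := O_div h3 (le_refl (a + 1))
  have h5 := h2.add h4
  rw [add_zero] at h5
  refine h5.congr' ?_
  filter_upwards [eventually_gt_atTop 0] with p hp
  have hp0 : (p : ℂ) ≠ 0 := by exact_mod_cast hp.ne'
  rw [tp_eq g d e k p hg hp.ne', ← ha]
  field_simp
  ring

/-- the limit of the point count -/
theorem eG_lim (A8 : RowA8) (n m g : ℕ) (hn : 1 ≤ n) (hmn : m ∣ n) (hm : 2 ≤ m) (hg : 2 ≤ g) :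
    Tendsto (fun p : ℕ => eG n m g (p : ℂ) /
      (p : ℂ) ^ ((g - 1) * (n ^ 2 + n * (n / m)) - 1)) atTop (𝓝 (-(2 * g - 2 : ℕ))) := by
  obtain ⟨r, hr⟩ := hmn
  have hr1 : 1 ≤ r := by
    rcases Nat.eq_zero_or_pos r with h | h
    · subst h; omega
    · exact h
  have hnr : n / m = r := by rw [hr]; exact Nat.mul_div_cancel_left r (by omega)
  rw [hnr]
  set T := (g - 1) * (n ^ 2 + n * r) with hT
  set A := n * (n - 1) * (g - 1) with hA
  have hT1 : 1 ≤ T := Nat.mul_pos (by omega) (by positivity)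
  have hn0 : (n : ℂ) ≠ 0 := by exact_mod_cast (by omega : n ≠ 0)
  -- the single terms
  have key : ∀ d ∈ n.divisors, Tendsto (fun p : ℕ =>
      ((p : ℂ) ^ A * ld (om (powMonoidHom (2 * g - 2)) (p : ℂ) d (m / Nat.gcd m d))
        (n / Nat.lcm m d)) / (p : ℂ) ^ (T - 1) - if d ∣ m then (p : ℂ) * r else 0) atTop
      (𝓝 (if d = 1 then -(r * (m * (2 * g - 2 : ℕ))) else 0)) := by
    intro d hd
    have hdn : d ∣ n := (Nat.mem_divisors.1 hd).1
    have hd1 : 1 ≤ d := Nat.pos_of_dvd_of_pos hdn (by omega)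
    have hgp : 0 < Nat.gcd m d := Nat.gcd_pos_of_pos_left _ (by omega)
    set e := m / Nat.gcd m d with he
    have hL : d * e = Nat.lcm m d := by
      unfold Nat.lcm
      rw [he, Nat.mul_comm m d, Nat.mul_div_assoc _ (Nat.gcd_dvd_left m d)]
    set L := Nat.lcm m d with hLd
    have hmL : m ∣ L := Nat.dvd_lcm_left m d
    have hLn : L ∣ n := Nat.lcm_dvd ⟨r, hr⟩ hdn
    obtain ⟨s, hs⟩ := hLn
    have hL1 : 2 ≤ L := by
      have h1 : 1 ≤ L := Nat.lcm_pos (by omega) hd1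
      exact hm.trans (Nat.le_of_dvd h1 hmL)
    have hs1 : 1 ≤ s := by
      rcases Nat.eq_zero_or_pos s with h | h
      · subst h; omega
      · exact h
    have hnL : n / L = s := by rw [hs]; exact Nat.mul_div_cancel_left s (by omega)
    rw [hnL]
    have hc : 2 ≤ (g - 1) * (d * e) := by
      rw [hL]
      exact hL1.trans (Nat.le_mul_of_pos_left _ (by omega))
    have hexp : A + (g - 1) * (d * e) * (s ^ 2 + s) = (g - 1) * (n ^ 2 + n * s) := by
      rw [hL, hA]
      obtain ⟨n', rfl⟩ : ∃ n', n = n' + 1 := ⟨n - 1, by omega⟩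
      rw [Nat.add_sub_cancel]
      have h1 : (g - 1) * L * (s ^ 2 + s) = (g - 1) * ((L * s) * s + L * s) := by ring
      rw [h1, ← hs]
      ring
    by_cases hdm : d ∣ m
    · have hLm : L = m := by rw [hLd]; exact Nat.lcm_eq_left hdm
      have hsr : s = r := by
        have h1 : m * s = m * r := by rw [← hr, ← hLm, ← hs]
        exact Nat.eq_of_mul_eq_mul_left (by omega) h1
      simp only [if_pos hdm]
      have h1 := term_lim A8 g d e s (by omega) hd1 hs1 hc
      have e1 : (s : ℂ) * (e * ((2 * g - 2 : ℕ) * (if d = 1 then (-1 : ℂ) else 0)))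
          = if d = 1 then -((r : ℂ) * (m * (2 * g - 2 : ℕ))) else 0 := by
        by_cases h : d = 1
        · rw [if_pos h, if_pos h, hsr]
          have h2 : e = m := by rw [he, h, Nat.gcd_one_right, Nat.div_one]
          rw [h2]
          ring
        · rw [if_neg h, if_neg h]
          ring
      rw [e1] at h1
      refine h1.congr' ?_
      filter_upwards [eventually_gt_atTop 0] with p hp
      have hp0 : (p : ℂ) ≠ 0 := by exact_mod_cast hp.ne'
      rw [hsr] at hexp ⊢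
      have h2 : (p : ℂ) ^ A * (p : ℂ) ^ ((g - 1) * (d * e) * (r ^ 2 + r))
          = (p : ℂ) * (p : ℂ) ^ (T - 1) := by
        rw [← pow_add, ← pow_succ', hexp, Nat.sub_add_cancel hT1]
      rw [sub_left_inj, mul_div_assoc', div_eq_div_iff (pow_ne_zero _ hp0) (pow_ne_zero _ hp0)]
      linear_combination (-(ld (om (powMonoidHom (2 * g - 2)) (p : ℂ) d e) r)) * h2
    · have hd1' : d ≠ 1 := fun h => hdm (h ▸ one_dvd m)
      rw [if_neg hd1']
      simp only [if_neg hdm, sub_zero]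
      have h1 := (ld_asym (fun p => om (powMonoidHom (2 * g - 2)) (p : ℂ) d e) _ hc
        (fun p => om_zero g d e p) (fun k => om_O g d e k (by omega) hd1) s hs1).1
      have h2 := (isBigO_refl (P A) atTop).mul h1
      have h3 : (fun p : ℕ => P A p * P ((g - 1) * (d * e) * (s ^ 2 + s)) p)
          = P (A + (g - 1) * (d * e) * (s ^ 2 + s)) := by
        funext p
        simp only [P, pow_add]
      rw [h3, hexp] at h2
      refine O_div h2 ?_
      -- the exponents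
      have hsr : s + 1 ≤ r := by
        obtain ⟨u, hu⟩ := hmL
        have hu2 : 2 ≤ u := by
          by_contra hcon
          have hu1 : u = 1 := by
            have : u ≠ 0 := by rintro rfl; omega
            omega
          apply hdm
          have h5 : L = m := by rw [hu, hu1, mul_one]
          rw [← h5]
          exact Nat.dvd_lcm_right m d
        have h6 : m * r = m * (u * s) := by rw [← hr, hs, hu]; ring
        have h7 : r = u * s := Nat.eq_of_mul_eq_mul_left (by omega) h6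
        rw [h7]
        nlinarith
      have hn2 : 2 ≤ n := by
        rw [hs]
        nlinarith
      have h8 : n * s + n ≤ n * r := by nlinarith
      have h9 : (g - 1) * (n ^ 2 + n * s) + (g - 1) * n ≤ T := by
        rw [hT, ← mul_add]
        exact Nat.mul_le_mul_left _ (by omega)
      have h10 : 2 ≤ (g - 1) * n := hn2.trans (Nat.le_mul_of_pos_left _ (by omega))
      omega
  have hsum := tendsto_finsetSum n.divisors fun d hd =>
    (key d hd).const_mul (((ArithmeticFunction.moebius d : ℤ) : ℂ))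
  have hlim : ∑ d ∈ n.divisors, ((ArithmeticFunction.moebius d : ℤ) : ℂ) *
      (if d = 1 then -(r * (m * (2 * g - 2 : ℕ))) else 0 : ℂ) = -(n * (2 * g - 2 : ℕ)) := by
    rw [Finset.sum_eq_single_of_mem 1 (Nat.one_mem_divisors.2 (by omega))]
    · rw [if_pos rfl, hr]
      push_cast
      simp
      ring
    · intro d _ hd
      rw [if_neg hd, mul_zero]
  rw [hlim] at hsum
  have h1 := hsum.const_mul (1 / (n : ℂ))
  have h2 : 1 / (n : ℂ) * -(n * (2 * g - 2 : ℕ)) = -(2 * g - 2 : ℕ) := by field_simp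
  rw [h2] at h1
  refine h1.congr fun p => ?_
  have hmu : ∑ d ∈ n.divisors, ((ArithmeticFunction.moebius d : ℤ) : ℂ) *
      (if d ∣ m then (p : ℂ) * r else 0) = 0 := by
    have h3 : ∑ d ∈ n.divisors, ((ArithmeticFunction.moebius d : ℤ) : ℂ) *
        (if d ∣ m then (p : ℂ) * r else 0)
        = (∑ d ∈ m.divisors, ((ArithmeticFunction.moebius d : ℤ) : ℂ)) * ((p : ℂ) * r) := by
      rw [Finset.sum_mul, ← Finset.sum_subset (Nat.divisors_subset_of_dvd (by omega) ⟨r, hr⟩)]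
      · refine Finset.sum_congr rfl fun d hd => ?_
        rw [if_pos (Nat.mem_divisors.1 hd).1]
      · intro d _ hd
        rw [if_neg, mul_zero]
        intro h
        exact hd (Nat.mem_divisors.2 ⟨h, by omega⟩)
    have h4 : ∑ d ∈ m.divisors, ArithmeticFunction.moebius d = 0 := by
      have h6 := congrArg (fun f => f m) ArithmeticFunction.moebius_mul_coe_zeta
      simp only [ArithmeticFunction.coe_mul_zeta_apply] at h6
      rw [h6, ArithmeticFunction.one_apply_ne (by omega)]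
    have h5 : ∑ d ∈ m.divisors, ((ArithmeticFunction.moebius d : ℤ) : ℂ) = 0 := by
      exact_mod_cast h4
    rw [h3, h5, zero_mul]
  simp only [mul_sub, Finset.sum_sub_distrib]
  rw [hmu, mul_zero, sub_zero]
  unfold eG
  rw [← hA, Finset.mul_sum, Finset.mul_sum, Finset.mul_sum, Finset.sum_div]
  refine Finset.sum_congr rfl fun d _ => ?_
  ring

end Vale.Agent.P275.R2.H617
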