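import Vale.Agent.P275.R2.H617.Lead

/-!
# The weights in the lowest degree of an isotypic part
-/

namespace Vale.Agent.P275.R2.H617
open scoped BigOperators Topology
open Filter Asymptotics Vale.Agent.P275.H341

/-- the row on the lowest weights -/
theorem rowTopG (A8 : RowA8) : ∀ (n m g : ℕ), 1 ≤ n → m ∣ n → 2 ≤ m → 2 ≤ g →
    ∀ h : ℕ → ℕ → ℕ,
    (∀ k w, h k w ≠ 0 → k ≤ w ∧ w ≤ 2 * k) →
    (∀ k w, k ≤ 2 * (n * (n - n / m) * (g - 1)) → h k w = 0) →
    (∑ w ∈ Finset.range (2 * (2 * (n * (n - n / m) * (g - 1)) + 1) + 1),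
      h (2 * (n * (n - n / m) * (g - 1)) + 1) w = 2 * g - 2) →
    (∀ p : ℕ, p.Prime → p ≡ 1 [MOD 2 * n] →
      ((p : ℂ) - 1) ^ (2 * g - 2) *
        ∑ k ∈ Finset.range (2 * ((n ^ 2 - 1) * (g - 1)) + 1),
          ∑ w ∈ Finset.range (2 * k + 1), (-1) ^ k * (h k w : ℂ) *
            ((Real.sqrt p : ℝ) : ℂ) ^ (4 * ((n ^ 2 - 1) * (g - 1)) - w) = eG n m g p) →
    (∀ w, h (2 * (n * (n - n / m) * (g - 1)) + 1) w
      = if w = 2 * (n * (n - n / m) * (g - 1) + 1) then 2 * g - 2 else 0) ∧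
    h (2 * (n * (n - n / m) * (g - 1)) + 2) (2 * (n * (n - n / m) * (g - 1)) + 2) = 0 := by
  intro n m g hn hmn hm hg h H0 H1 H2 H3
  obtain ⟨r, hr⟩ := id hmn
  have hr1 : 1 ≤ r := by
    rcases Nat.eq_zero_or_pos r with h | h
    · subst h; omega
    · exact h
  have hnr : n / m = r := by rw [hr]; exact Nat.mul_div_cancel_left r (by omega)
  have hrn : r ≤ n := by rw [hr]; exact Nat.le_mul_of_pos_left _ (by omega)
  have hn2 : 2 ≤ n := hm.trans (Nat.le_of_dvd (by omega) hmn)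
  have hlim := eG_lim A8 n m g hn hmn hm hg
  rw [hnr] at H1 H2 hlim ⊢
  set D := n * (n - r) * (g - 1) with hD
  set R := (n ^ 2 - 1) * (g - 1) with hR
  set T := (g - 1) * (n ^ 2 + n * r) with hT
  -- exponents
  have hDT : D + T = 2 * R + 2 * (g - 1) := by
    rw [hD, hT, hR]
    obtain ⟨g', rfl⟩ : ∃ g', g = g' + 1 := ⟨g - 1, by omega⟩
    obtain ⟨v, rfl⟩ : ∃ v, n = r + v := ⟨n - r, by omega⟩
    rw [Nat.add_sub_cancel, Nat.add_sub_cancel_left]
    obtain ⟨z, hz⟩ : ∃ z, (r + v) ^ 2 = z + 1 := ⟨(r + v) ^ 2 - 1, by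
      have : 1 ≤ (r + v) ^ 2 := Nat.one_le_pow _ _ (by omega)
      omega⟩
    rw [hz, Nat.add_sub_cancel]
    nlinarith
  have hDR : D + 1 ≤ R := by
    rw [hD, hR]
    obtain ⟨g', rfl⟩ : ∃ g', g = g' + 2 := ⟨g - 2, by omega⟩
    rw [show g' + 2 - 1 = g' + 1 by omega]
    have h1 : n * (n - r) + 1 ≤ n ^ 2 - 1 := by
      obtain ⟨v, rfl⟩ : ∃ v, n = r + v := ⟨n - r, by omega⟩
      rw [Nat.add_sub_cancel_left]
      have h2 : 1 ≤ (r + v) ^ 2 := Nat.one_le_pow _ _ (by omega)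
      have h3 : (r + v) * v + 2 ≤ (r + v) ^ 2 := by
        have : 2 ≤ (r + v) * r := by nlinarith
        nlinarith
      omega
    nlinarith [Nat.mul_le_mul_right (g' + 1) h1]
  -- the polynomial in the square root
  set S : ℝ → ℂ := fun x => ∑ k ∈ Finset.range (2 * R + 1), ∑ w ∈ Finset.range (2 * k + 1),
    (-1) ^ k * (h k w : ℂ) * (x : ℂ) ^ (4 * R - w) with hS
  have hSf : ∀ x : ℝ, S x = ∑ z ∈ (Finset.range (2 * R + 1)).sigma
      (fun k => Finset.range (2 * k + 1)),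
      (-1) ^ z.1 * (h z.1 z.2 : ℂ) * (x : ℂ) ^ (4 * R - z.2) := fun x =>
    Finset.sum_sigma' (Finset.range (2 * R + 1)) (fun k => Finset.range (2 * k + 1))
      (fun k w => (-1) ^ k * (h k w : ℂ) * (x : ℂ) ^ (4 * R - w))
  set I := (Finset.range (2 * R + 1)).sigma (fun k => Finset.range (2 * k + 1)) with hI
  have hI' : ∀ z : (Σ _ : ℕ, ℕ), z ∈ I ↔ z.1 ≤ 2 * R ∧ z.2 ≤ 2 * z.1 := fun z => by
    rw [hI, Finset.mem_sigma, Finset.mem_range, Finset.mem_range]
    omega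
  have hsq : Tendsto (fun p : ℕ => Real.sqrt p) atTop atTop :=
    Real.tendsto_sqrt_atTop.comp tendsto_natCast_atTop_atTop
  have hsqi : Tendsto (fun p : ℕ => (((Real.sqrt p : ℝ) : ℂ))⁻¹) atTop (𝓝 0) := by
    have h1 := (Complex.continuous_ofReal.tendsto 0).comp (tendsto_inv_atTop_zero.comp hsq)
    rw [Complex.ofReal_zero] at h1
    refine h1.congr fun p => ?_
    simp
  set u := h (2 * D + 1) (2 * D + 1) with hu
  set v := h (2 * D + 1) (2 * D + 2) with hv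
  set w0 := h (2 * D + 2) (2 * D + 2) with hw0
  have hterm : ∀ z ∈ I, Tendsto (fun p : ℕ =>
      (-1) ^ z.1 * (h z.1 z.2 : ℂ) * ((Real.sqrt p : ℝ) : ℂ) ^ (4 * R - z.2) /
        ((Real.sqrt p : ℝ) : ℂ) ^ (4 * R - (2 * D + 2)) -
        (if z = (⟨2 * D + 1, 2 * D + 1⟩ : Σ _ : ℕ, ℕ) then
          -(u : ℂ) * ((Real.sqrt p : ℝ) : ℂ) else 0)) atTop
      (𝓝 ((if z = (⟨2 * D + 1, 2 * D + 2⟩ : Σ _ : ℕ, ℕ) then -(v : ℂ) else 0) +
        (if z = (⟨2 * D + 2, 2 * D + 2⟩ : Σ _ : ℕ, ℕ) then (w0 : ℂ) else 0))) := by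
    rintro ⟨k, w⟩ hz
    rw [hI'] at hz
    obtain ⟨hz1, hz2⟩ := hz
    simp only at hz1 hz2
    have hpos : ∀ᶠ p : ℕ in atTop, ((Real.sqrt p : ℝ) : ℂ) ≠ 0 := by
      filter_upwards [hsq.eventually_gt_atTop 0] with p hp
      exact_mod_cast hp.ne'
    simp only [Sigma.mk.injEq, heq_eq_eq]
    by_cases ha : k = 2 * D + 1 ∧ w = 2 * D + 1
    · simp only [if_pos ha]
      rw [if_neg (by omega), if_neg (by omega), add_zero]
      refine tendsto_const_nhds.congr' ?_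
      filter_upwards [hpos] with p hp
      rw [ha.1, ha.2, ← hu, Odd.neg_one_pow ⟨D, rfl⟩,
        show 4 * R - (2 * D + 1) = (4 * R - (2 * D + 2)) + 1 by omega, pow_succ]
      field_simp
      ring
    · simp only [if_neg ha, sub_zero]
      by_cases hb : k = 2 * D + 1 ∧ w = 2 * D + 2
      · rw [if_pos hb, if_neg (by omega), add_zero]
        refine tendsto_const_nhds.congr' ?_
        filter_upwards [hpos] with p hp
        rw [hb.1, hb.2, ← hv, Odd.neg_one_pow ⟨D, rfl⟩]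
        field_simp
      · rw [if_neg hb]
        by_cases hc : k = 2 * D + 2 ∧ w = 2 * D + 2
        · rw [if_pos hc, zero_add]
          refine tendsto_const_nhds.congr' ?_
          filter_upwards [hpos] with p hp
          rw [hc.1, hc.2, ← hw0, Even.neg_one_pow ⟨D + 1, by ring⟩]
          field_simp
        · rw [if_neg hc, add_zero]
          by_cases h0 : h k w = 0
          · rw [h0]
            simp
          · have h5 := H0 k w h0
            have h6 : 2 * D < k := by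
              by_contra hcon
              exact h0 (H1 k w (by omega))
            have h7 : 2 * D + 3 ≤ w := by omega
            have h8 := (hsqi.pow (w - (2 * D + 2))).const_mul ((-1) ^ k * (h k w : ℂ))
            rw [zero_pow (by omega), mul_zero] at h8
            refine h8.congr' ?_
            filter_upwards [hpos] with p hp
            rw [show 4 * R - (2 * D + 2) = (4 * R - w) + (w - (2 * D + 2)) by omega, pow_add,
              inv_pow]
            field_simp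
  have hsum := tendsto_finsetSum I hterm
  have hma : (⟨2 * D + 1, 2 * D + 1⟩ : Σ _ : ℕ, ℕ) ∈ I := (hI' _).2 (by simp only; omega)
  have hmb : (⟨2 * D + 1, 2 * D + 2⟩ : Σ _ : ℕ, ℕ) ∈ I := (hI' _).2 (by simp only; omega)
  have hmc : (⟨2 * D + 2, 2 * D + 2⟩ : Σ _ : ℕ, ℕ) ∈ I := (hI' _).2 (by simp only; omega)
  rw [Finset.sum_add_distrib, Finset.sum_ite_eq' I, Finset.sum_ite_eq' I, if_pos hmb,
    if_pos hmc] at hsum
  simp only [Finset.sum_sub_distrib] at hsum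
  -- the comparison
  have hY : Tendsto (fun p : ℕ => eG n m g (p : ℂ) / (p : ℂ) ^ (T - 1) *
      ((p : ℂ) ^ (2 * g - 2) / ((p : ℂ) - 1) ^ (2 * g - 2))) atTop
      (𝓝 (-(2 * g - 2 : ℕ) * 1)) := by
    refine hlim.mul ?_
    have h1 := ((L1_base 1 Nat.one_pos).tend.pow (2 * g - 2)).inv₀ (by simp)
    rw [one_pow, inv_one] at h1
    refine h1.congr' ?_
    filter_upwards [eventually_gt_atTop 1] with p hp
    have hp0 : (p : ℂ) ≠ 0 := by exact_mod_cast (by omega : p ≠ 0)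
    have hp1 : (p : ℂ) - 1 ≠ 0 := by
      rw [sub_ne_zero]
      exact_mod_cast (by omega : p ≠ 1)
    rw [← div_pow, ← inv_pow, pow_one]
    congr 1
    field_simp
  have hZ := hY.sub hsum
  have hfilter : ∃ᶠ p : ℕ in atTop, p.Prime ∧ p ≡ 1 [MOD 2 * n] := by
    rw [Filter.frequently_atTop]
    intro a
    obtain ⟨p, hp, hp1, hp2⟩ := Nat.exists_prime_gt_modEq_one (k := 2 * n) a (by omega)
    exact ⟨p, hp1.le, hp, hp2⟩
  have hT1 : 1 ≤ T := Nat.mul_pos (by omega) (by positivity)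
  have hgood : ∀ p : ℕ, p.Prime → p ≡ 1 [MOD 2 * n] →
      eG n m g (p : ℂ) / (p : ℂ) ^ (T - 1) *
      ((p : ℂ) ^ (2 * g - 2) / ((p : ℂ) - 1) ^ (2 * g - 2))
      = ∑ z ∈ I, (-1) ^ z.1 * (h z.1 z.2 : ℂ) * ((Real.sqrt p : ℝ) : ℂ) ^ (4 * R - z.2) /
        ((Real.sqrt p : ℝ) : ℂ) ^ (4 * R - (2 * D + 2)) := by
    intro p hp hp1
    have h1 := H3 p hp hp1
    have h2 := hSf (Real.sqrt p)
    rw [hS] at h2
    simp only at h2
    rw [h2] at h1
    have hp0 : (p : ℂ) ≠ 0 := by exact_mod_cast hp.ne_zero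
    have hp1 : (p : ℂ) - 1 ≠ 0 := by
      rw [sub_ne_zero]
      exact_mod_cast hp.one_lt.ne'
    rw [← h1, ← Finset.sum_div]
    have hsqp : ((Real.sqrt p : ℝ) : ℂ) ^ 2 = (p : ℂ) := by
      rw [← Complex.ofReal_pow, Real.sq_sqrt (Nat.cast_nonneg p)]
      simp
    have h3 : ((Real.sqrt p : ℝ) : ℂ) ^ (4 * R - (2 * D + 2)) = (p : ℂ) ^ (2 * R - (D + 1)) := by
      rw [show 4 * R - (2 * D + 2) = 2 * (2 * R - (D + 1)) by omega, pow_mul, hsqp]
    have h4 : (p : ℂ) ^ (T - 1) = (p : ℂ) ^ (2 * g - 2) * (p : ℂ) ^ (2 * R - (D + 1)) := by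
      rw [← pow_add]
      congr 1
      omega
    rw [h3, h4]
    field_simp
  set c : ℤ := (v : ℤ) - w0 - (2 * g - 2 : ℕ) with hc
  have hc' : (-(2 * g - 2 : ℕ) * 1 - (-(v : ℂ) + (w0 : ℂ))) = (c : ℂ) := by
    rw [hc]
    push_cast
    ring
  rw [hc'] at hZ
  have hev := (Metric.tendsto_nhds.1 hZ (1 / 2) (by norm_num)).and
    (hsq.eventually_gt_atTop (‖(c : ℂ)‖ + 1))
  obtain ⟨p, ⟨hp, hp1⟩, hp2, hp3⟩ := (hfilter.and_eventually hev).exists
  rw [hgood p hp hp1, sub_sub_cancel, Finset.sum_ite_eq' I, if_pos hma, dist_eq_norm] at hp2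
  have hu0 : u = 0 := by
    by_contra hcon
    have h1 : (1 : ℝ) ≤ u := by exact_mod_cast Nat.pos_of_ne_zero hcon
    have h2 : ‖-(u : ℂ) * ((Real.sqrt p : ℝ) : ℂ)‖ = u * Real.sqrt p := by
      rw [norm_mul, norm_neg, Complex.norm_natCast, Complex.norm_real,
        Real.norm_of_nonneg (Real.sqrt_nonneg _)]
    have h3 := norm_sub_norm_le (-(u : ℂ) * ((Real.sqrt p : ℝ) : ℂ)) (c : ℂ)
    rw [h2] at h3
    have h4 : Real.sqrt p ≤ u * Real.sqrt p := le_mul_of_one_le_left (Real.sqrt_nonneg _) h1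
    linarith
  rw [hu0] at hp2
  have hc0 : c = 0 := by
    have h1 : ‖(c : ℂ)‖ < 1 / 2 := by simpa using hp2
    rw [Complex.norm_intCast] at h1
    have h2 : |(c : ℝ)| < 1 := by linarith
    have h3 : |c| < 1 := by exact_mod_cast h2
    exact Int.abs_lt_one_iff.1 h3
  have hvw : v = w0 + (2 * g - 2) := by omega
  have hmem : 2 * D + 2 ∈ Finset.range (2 * (2 * D + 1) + 1) := Finset.mem_range.2 (by omega)
  have h1 := Finset.add_sum_erase _ (fun w => h (2 * D + 1) w) hmem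
  rw [H2] at h1
  simp only [← hv] at h1
  have hw00 : w0 = 0 := by omega
  have hrest : ∑ w ∈ (Finset.range (2 * (2 * D + 1) + 1)).erase (2 * D + 2),
      h (2 * D + 1) w = 0 := by omega
  refine ⟨fun w => ?_, hw00⟩
  by_cases hw : w = 2 * (D + 1)
  · rw [if_pos hw, hw, show 2 * (D + 1) = 2 * D + 2 by ring, ← hv]
    omega
  · rw [if_neg hw]
    by_contra hcon
    have h5 := H0 _ _ hcon
    exact hcon (Finset.sum_eq_zero_iff.1 hrest w (Finset.mem_erase.2
      ⟨by omega, Finset.mem_range.2 (by omega)⟩))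

end Vale.Agent.P275.R2.H617
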